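import Vale.Agent.P260Z.Ob.Top.Discr.Pre
import Vale.Agent.P215Z.Top.Discr.Stair

/-!
# P260: refining a coarse lattice map to a staircase map
-/

noncomputable section
set_option linter.unusedSectionVars false
variable [Vale.Agent.P215Z.K.Geom]

namespace Vale.Agent.P215Z.K

open Stair in
theorem PreData.disc (P : PreData) : Nonempty DiscData := by
  have hh : ∀ v, InG (8 * P.M) v → st P.F v ∈ Hull P.F (cs P.M v) := fun v hv =>
    hull_of fun c hc => corner_cs hv hc
  refine ⟨{
    N := P.N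
    hN := P.hN
    M := 8 * P.M
    hM := Nat.mul_pos (by norm_num) P.hM
    F := fun g v => act P.N g (st P.F v)
    reg := fun v => P.rg (cs P.M v) (st P.F v)
    equiv := fun g i v => act_mul_of _ _ _ _
    shape := fun g v hv => ?_
    inR := fun v hv => P.inR _ (inSq_cs P.hM hv) _ (hh v hv)
    sq := fun v hv => Or.inr ?_
    sep := fun v v' hv hv' h =>
      P.sep _ _ (inSq_cs P.hM hv) (inSq_cs P.hM hv') _ (hh v hv) _ (hh v' hv') h
    bd := fun v hv => ?_ }⟩
  · obtain ⟨π, t, h⟩ := act_form P.N g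
    have e : ∀ q, act P.N g q = pt π t q := fun q => funext fun j => h q j
    simp only [e]
    refine shape_pt π t (shape_st P.F v fun c c' hc hc' k => ?_)
    have h1 := P.near _ (inSq_sqOf hv) c c' hc hc' k
    have h2 := P.near _ (inSq_sqOf hv) c' c hc' hc k
    exact abs_le.mpr ⟨by omega, by omega⟩
  · obtain ⟨g, i, h⟩ := P.sq _ (inSq_sqOf hv)
    refine ⟨g, i, fun w hw => ?_⟩
    have hG := inG_of_corner hv hw
    have e : P.rg (cs P.M w) (st P.F w) = P.rg (sqOf v) (st P.F w) :=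
      P.cons _ _ (sqOf w) (inSq_cs P.hM hG) (inSq_sqOf hv) (corner_cs hG (car_sqOf w))
        (corner_of_car hw (car_sqOf w)) _ (hh w hG)
    simp only [e]
    exact h _ (hull_of fun c hc => corner_of_car hw hc)
  · simp only [act_one]
    obtain ⟨c3, h3, e3⟩ := st_mem P.F v 3
    have key : ∀ (s : Fin 4), (∀ c, Car v c → InBox P.N (sideB s).1 (sideB s).2 (P.F c)) →
        InBox P.N (sideB s).1 (sideB s).2 (st P.F v) := fun s h j => by
      obtain ⟨c, hc, e⟩ := st_mem P.F v j
      rw [e]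
      exact h c hc j
    refine ⟨P.bdr _ _ (inSq_cs P.hM hv.1) (corner_cs hv.1 h3) (onBd_car hv h3).1 _ (hh v hv.1),
      e3.trans (P.bd _ (onBd_car hv h3).1).1, fun h => key _ fun c hc => ?_,
      fun h => key _ fun c hc => ?_, fun h => key _ fun c hc => ?_, fun h => key _ fun c hc => ?_⟩
    · exact (P.bd _ (onBd_car hv hc).1).2.1 ((onBd_car hv hc).2.2.2.1 h)
    · exact (P.bd _ (onBd_car hv hc).1).2.2.1 ((onBd_car hv hc).2.2.1 h)
    · exact (P.bd _ (onBd_car hv hc).1).2.2.2.1 ((onBd_car hv hc).2.2.2.2 h)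
    · exact (P.bd _ (onBd_car hv hc).1).2.2.2.2 ((onBd_car hv hc).2.1 h)

end Vale.Agent.P215Z.K
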