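import Vale.Agent.P260Z.Ob.Geom

/-!
# P260, obstruction: the coarse discretisation, interface
-/

noncomputable section
set_option linter.unusedSectionVars false
variable [Vale.Agent.P215Z.K.Geom]

namespace Vale.Agent.P215Z.K

/-- the transition as a permutation of the lattice -/
def thE (N : ℕ) (i : Kl) : Equiv.Perm Pt where
  toFun := thC N i
  invFun q := fun j => q ((ppi i).symm j) - N * (org (i, false) ((ppi i).symm j) - org (i, true) j)
  left_inv q := funext fun j => by simp [thC]
  right_inv q := funext fun j => by simp [thC]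

/-- from the chart `1` to the chart `g` -/
def act (N : ℕ) (g : F3) : Equiv.Perm Pt := (FreeGroup.lift (fun i => (thE N i)⁻¹) g)⁻¹

theorem act_one (N : ℕ) (q : Pt) : act N 1 q = q := by simp [act]

theorem act_mul (N : ℕ) (g h : F3) (q : Pt) : act N (g * h) q = act N h (act N g q) := by
  simp [act]

theorem act_of (N : ℕ) (i : Kl) (q : Pt) : act N (FreeGroup.of i) q = thC N i q := by
  simp [act]
  rfl

theorem act_mul_of (N : ℕ) (g : F3) (i : Kl) (q : Pt) :
    act N (g * FreeGroup.of i) q = thC N i (act N g q) := by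
  rw [act_mul, act_of]

/-- every change of chart permutes the coordinates and translates -/
theorem act_form (N : ℕ) (g : F3) :
    ∃ (π : Equiv.Perm (Fin 4)) (t : Pt), ∀ q j, act N g q j = q (π j) + t j := by
  induction g using FreeGroup.induction_on with
  | C1 => exact ⟨1, 0, fun q j => by rw [act_one]; simp⟩
  | of i => exact ⟨ppi i, _, fun q j => by rw [act_of, thC]⟩
  | inv_of i _ =>
    refine ⟨(ppi i).symm, fun j => -(N * (org (i, false) ((ppi i).symm j) - org (i, true) j)),
      fun q j => ?_⟩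
    have h : act N (FreeGroup.of i)⁻¹ q = (thE N i).symm q := by simp [act]
    rw [h, ← sub_eq_add_neg]
    rfl
  | mul g h hg hh =>
    obtain ⟨π, t, h1⟩ := hg
    obtain ⟨ρ, u, h2⟩ := hh
    exact ⟨π * ρ, fun j => t (ρ j) + u j, fun q j => by
      rw [act_mul, h2, h1, add_assoc, Equiv.Perm.mul_apply]⟩

/-- the box spanned by the values at the four corners of the square `s` -/
def Hull (F : Gp → Pt) (s : Gp) : Set Pt :=
  {q | ∀ j, (∃ w, Corner s w ∧ F w j ≤ q j) ∧ ∃ w, Corner s w ∧ q j ≤ F w j}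

/-- The coarse data: `F` is the map in the chart `1`, and `rg s q` is the region of a point `q`
of the box of the square `s`. -/
structure PreData where
  N : ℕ
  hN : 0 < N
  M : ℕ
  hM : 0 < M
  F : Gp → Pt
  rg : Gp → Pt → F3
  near : ∀ s, InSq M s → ∀ w w', Corner s w → Corner s w' → ∀ j, F w j ≤ F w' j + 1
  inR : ∀ s, InSq M s → ∀ q ∈ Hull F s, act N (rg s q) q ∈ Rc N
  sq : ∀ s, InSq M s → ∃ g i, ∀ q ∈ Hull F s, act N g q ∈ Uc N ∧
    ((rg s q = g ∧ act N g q ∉ Qc N (i, true)) ∨
      (rg s q = g * FreeGroup.of i ∧ act N g q ∈ Qc N (i, true)))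
  cons : ∀ s s' w, InSq M s → InSq M s' → Corner s w → Corner s' w →
    ∀ q ∈ Hull F s, rg s q = rg s' q
  sep : ∀ s s', InSq M s → InSq M s' → ∀ q ∈ Hull F s, ∀ q' ∈ Hull F s',
    act N (rg s q) q = act N (rg s' q') q' → rg s q = rg s' q'
  bdr : ∀ s w, InSq M s → Corner s w → OnBd M w → ∀ q ∈ Hull F s, rg s q = 1
  bd : ∀ v, OnBd M v → F v 3 = 0 ∧
    (v.2 = 0 → InBox N (sideB 0).1 (sideB 0).2 (F v)) ∧
    (v.1 = M → InBox N (sideB 1).1 (sideB 1).2 (F v)) ∧
    (v.2 = M → InBox N (sideB 2).1 (sideB 2).2 (F v)) ∧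
    (v.1 = 0 → InBox N (sideB 3).1 (sideB 3).2 (F v))

end Vale.Agent.P215Z.K
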