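import Vale.Agent.P260Z.Ob.Top.Defs
import Vale.Agent.P260Z.Ob.Top.Discr.Pre
import Vale.Agent.P215Z.Top.Discr.Main

/-!
# P260: the plumbing cubes, in the lattice and in space
-/

noncomputable section
set_option linter.unusedSectionVars false
variable [Vale.Agent.P215Z.K.Geom]

namespace Vale.Agent.P215Z.K.Discr

open Set
open P215Z.Discr (pr fl lt_pr pr_lt)

variable {N : ℕ}

theorem mem_Qc {l : Lg} {q : Pt} :
    q ∈ Qc N l ↔ ∀ j, N * org l j ≤ q j ∧ q j < N * org l j + 3 * N := by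
  refine forall_congr' fun j => ?_
  have h : (org l + 3) j = org l j + 3 := rfl
  rw [h, mul_add, mul_comm (N : ℤ) 3]

theorem Qc_near {l l' : Lg} {q q' : Pt} (h : q ∈ Qc N l) (h' : q' ∈ Qc N l')
    (hq : ∀ j, q j ≤ q' j + 1 ∧ q' j ≤ q j + 1) : l = l' := by
  by_contra hne
  obtain ⟨j, -, hj⟩ := Gx.org_gap l l' hne
  have h1 := mem_Qc.1 h j
  have h2 := mem_Qc.1 h' j
  have h3 := hq j
  have h4 : (0 : ℤ) < N := by linarith [h1.1, h1.2]
  rcases hj with hj | hj <;> nlinarith [mul_le_mul_of_nonneg_left hj h4.le]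

theorem Qc_disj {l l' : Lg} {q : Pt} (h : q ∈ Qc N l) (h' : q ∈ Qc N l') : l = l' :=
  Qc_near h h' fun _ => ⟨by linarith, by linarith⟩

theorem Qc_sub {l : Lg} {q : Pt} (h : q ∈ Qc N l) : q ∈ Uc N := by
  have h0 : (0 : ℤ) ≤ N := Int.natCast_nonneg N
  have h1 := Gx.org_bound l
  have h2 := Gx.org_cave l
  rw [mem_Qc] at h
  refine ⟨fun j => ?_, fun c hc h3 => ?_⟩
  · have h3 := h j
    have h4 := mul_le_mul_of_nonneg_left (h1 j).2 h0
    have h5 := mul_nonneg h0 (h1 j).1
    refine ⟨?_, by linarith [h3.2]⟩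
    rw [Pi.zero_apply, mul_zero]
    linarith [h3.1]
  · obtain ⟨j, hj⟩ := h2 c hc
    have h4 := h j
    have h5 := h3 j
    rcases hj with hj | hj <;> linarith [mul_le_mul_of_nonneg_left hj h0, h4.1, h4.2, h5.1, h5.2]

theorem thC_mem {i : Kl} {q : Pt} (h : q ∈ Qc N (i, true)) : thC N i q ∈ Qc N (i, false) :=
  mem_Qc.2 fun j => by
    have h1 := mem_Qc.1 h (ppi i j)
    rw [thC, mul_sub]
    constructor <;> linarith [h1.1, h1.2]

theorem false_notMem {i : Kl} {q : Pt} (h : q ∈ Qc N (i, false)) (j : Kl) :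
    q ∉ Qc N (j, true) := fun h' => by
  have h1 := Qc_disj h h'
  simp at h1

open Classical in
/-- the region of a point of the chart `g` -/
def lab (N : ℕ) (g : F3) (p : Pt) : F3 :=
  if h : ∃ i, p ∈ Qc N (i, true) then g * FreeGroup.of h.choose else g

theorem lab_of_mem {i : Kl} {p : Pt} (g : F3) (h : p ∈ Qc N (i, true)) :
    lab N g p = g * FreeGroup.of i := by
  have h1 : ∃ i, p ∈ Qc N (i, true) := ⟨i, h⟩
  have h2 : h1.choose = i := (Prod.ext_iff.1 (Qc_disj h1.choose_spec h)).1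
  rw [lab, dif_pos h1, h2]

theorem lab_of_not {p : Pt} (g : F3) (h : ∀ i, p ∉ Qc N (i, true)) : lab N g p = g := by
  rw [lab, dif_neg (not_exists.2 h)]

/-- the chart without the lower bound for the last coordinate -/
def OU : Set R4 := {y | O3 y ∧ y 3 < 3}

theorem thC_fl (i : Kl) (y : R4) : thC N i (fl N y) = fl N (thR i y) := funext fun j => by
  rw [thC, fl, fl, thR, mul_add, ← Int.floor_add_intCast]
  push_cast
  rfl

theorem pr_thC (hN : 0 < N) (i : Kl) (p : Pt) : pr N (thC N i p) = thR i (pr N p) :=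
  funext fun j => by
    have h : (N : ℝ) ≠ 0 := Nat.cast_ne_zero.2 hN.ne'
    rw [pr, thC, thR, pr]
    push_cast
    field_simp

theorem mem_Qc_of_pr (hN : 0 < N) {l : Lg} {p : Pt} (h : pr N p ∈ Qo l) : p ∈ Qc N l := fun j =>
  ⟨((lt_pr hN).1 (h j).1).le, (pr_lt hN).1 (by exact_mod_cast (h j).2)⟩

theorem pr_mem_Qb (hN : 0 < N) {l : Lg} {p : Pt} (h : p ∈ Qc N l) : pr N p ∈ Qb l := fun j =>
  ⟨not_lt.1 fun h1 => ((pr_lt hN).1 h1).not_ge (h j).1,
    ((pr_lt hN).2 (h j).2).le.trans (by exact_mod_cast le_rfl)⟩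

theorem mem_Uc_of_pr (hN : 0 < N) {p : Pt} (h : pr N p ∈ OU) (h0 : 0 ≤ p 3) : p ∈ Uc N := by
  refine ⟨fun j => ?_, fun c hc h1 => ?_⟩
  · by_cases hj : j = 3
    · subst hj
      exact ⟨by simpa using h0, (pr_lt hN).1 (by rw [Gx.hi_three]; exact_mod_cast h.2)⟩
    · exact ⟨((lt_pr (a := 0) hN).1 (by exact_mod_cast (h.1.1 j hj).1)).le, (pr_lt hN).1 (h.1.1 j hj).2⟩
  · obtain ⟨j, -, hj | hj⟩ := h.1.2 c hc
    · exact ((pr_lt hN).1 hj).not_ge (h1 j).1
    · exact ((lt_pr hN).1 hj).not_gt (h1 j).2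

theorem isOpen_Qo (l : Lg) : IsOpen (Qo l) := by
  rw [Qo, ofPred_forall]
  exact isOpen_iInter_of_finite fun j => (isOpen_lt continuous_const (continuous_apply j)).inter
    (isOpen_lt (continuous_apply j) continuous_const)

theorem isClosed_Qb (l : Lg) : IsClosed (Qb l) := by
  rw [Qb, ofPred_forall]
  exact isClosed_iInter fun j => (isClosed_le continuous_const (continuous_apply j)).inter
    (isClosed_le (continuous_apply j) continuous_const)

theorem isOpen_OU : IsOpen OU := by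
  refine IsOpen.inter (IsOpen.inter ?_ ?_) (isOpen_lt (continuous_apply 3) continuous_const)
  · change IsOpen {y : R4 | ∀ j : Fin 4, j ≠ 3 → 0 < y j ∧ y j < (boxHi j : ℝ)}
    simp only [ofPred_forall]
    exact isOpen_iInter_of_finite fun j => isOpen_iInter_of_finite fun _ =>
      (isOpen_lt continuous_const (continuous_apply j)).inter
        (isOpen_lt (continuous_apply j) continuous_const)
  · change IsOpen {y : R4 | ∀ c ∈ caves,
      ∃ j : Fin 4, j ≠ 3 ∧ (y j < (c.1 j : ℝ) ∨ (c.2 j : ℝ) < y j)}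
    simp only [ofPred_forall, ofPred_exists]
    exact (List.finite_toSet caves).isOpen_biInter fun c _ => isOpen_iUnion fun j =>
      isOpen_const.inter ((isOpen_lt (continuous_apply j) continuous_const).union
        (isOpen_lt continuous_const (continuous_apply j)))

theorem continuous_thR (i : Kl) : Continuous (thR i) :=
  continuous_pi fun _ => (continuous_apply _).add continuous_const

theorem thR_mem_Qb {i : Kl} {y : R4} (h : y ∈ Qb (i, true)) : thR i y ∈ Qb (i, false) :=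
  fun j => by
    have h1 := h (ppi i j)
    rw [thR]
    push_cast
    constructor <;> linarith [h1.1, h1.2]

theorem thR_mem_Qo {i : Kl} {y : R4} (h : y ∈ Qo (i, true)) : thR i y ∈ Qo (i, false) :=
  fun j => by
    have h1 := h (ppi i j)
    rw [thR]
    push_cast
    constructor <;> linarith [h1.1, h1.2]

/-- in a closed cube, the points of the chart are not on the sides in the fibre directions -/
theorem fibre {l : Lg} {y : R4} (h : y ∈ Qb l) (hO : y ∈ OO') (hb : y 3 = 0 → ∀ l, y ∉ Qb l)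
    {j : Fin 4} (hj : j = 1 ∨ j = 3) : (org l j : ℝ) < y j ∧ y j < org l j + 3 := by
  obtain ⟨c, hc, c1, c2, c3⟩ := Gx.end_lo l
  obtain ⟨d, hd, d1, d2, d3⟩ := Gx.end_hi l
  rw [Gx.kap_eq] at c1 c2 c3 d1 d2 d3
  replace c2 : c.1 1 ≤ org l 1 := by omega
  replace d2 : org l 1 + 3 ≤ d.2 1 := by omega
  have h3 := Gx.org_three l
  rcases hj with rfl | rfl
  · refine ⟨(h _).1.lt_of_ne fun e => ?_, (h _).2.lt_of_ne fun e => ?_⟩
    · obtain ⟨k, -, hk⟩ := hO.1.2 c hc
      by_cases e' : k = 1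
      · subst e'
        have c1' : (c.2 1 : ℝ) = org l 1 := by exact_mod_cast c1
        have c2' : (c.1 1 : ℝ) ≤ org l 1 := by exact_mod_cast c2
        rcases hk with hk | hk <;> linarith
      · have c4 : (c.1 k : ℝ) ≤ org l k := by exact_mod_cast (c3 k e').1
        have c5 : (org l k : ℝ) + 3 ≤ c.2 k := by exact_mod_cast (c3 k e').2
        rcases hk with hk | hk <;> linarith [(h k).1, (h k).2]
    · obtain ⟨k, -, hk⟩ := hO.1.2 d hd
      by_cases e' : k = 1
      · subst e'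
        have c1' : (d.1 1 : ℝ) = org l 1 + 3 := by exact_mod_cast d1
        have c2' : (org l 1 : ℝ) + 3 ≤ d.2 1 := by exact_mod_cast d2
        rcases hk with hk | hk <;> linarith
      · have c4 : (d.1 k : ℝ) ≤ org l k := by exact_mod_cast (d3 k e').1
        have c5 : (org l k : ℝ) + 3 ≤ d.2 k := by exact_mod_cast (d3 k e').2
        rcases hk with hk | hk <;> linarith [(h k).1, (h k).2]
  · rw [h3, Int.cast_zero, zero_add]
    exact ⟨hO.2.1.lt_of_ne fun e => hb e.symm l h, hO.2.2⟩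

theorem kap_ppi (i : Kl) (j : Fin 4) :
    (j = 1 ∨ j = 3) ∨ ∃ k, (k = 1 ∨ k = 3) ∧ ppi i k = j := by
  rw [Gx.ppi_eq]
  revert j
  decide

/-- the glued space is separated -/
theorem haus {i : Kl} {y : R4} (h : y ∈ Qb (i, true)) (hO : y ∈ OO')
    (hb : y 3 = 0 → ∀ l, y ∉ Qb l) (hO' : thR i y ∈ OO') (hb' : thR i y 3 = 0 → ∀ l, thR i y ∉ Qb l) :
    y ∈ Qo (i, true) := fun j => by
  rcases kap_ppi i j with hj | ⟨k, hk, rfl⟩
  · exact fibre h hO hb hj
  · have h1 := fibre (thR_mem_Qb h) hO' hb' hk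
    rw [thR] at h1
    push_cast at h1
    constructor <;> linarith [h1.1, h1.2]

end Vale.Agent.P215Z.K.Discr
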